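import Vale.Agent.P184.Corollaries
import Vale.Agent.P184.Unitary

/-!
P184: the ℓ¹-Bass question for linear representations.
-/

namespace Vale.Agent.Results.P184.BassLinearReps

open Vale.P184 Matrix Polynomial

universe u v w

theorem result :
    (∀ (G : Type u) [Group G] (K : Type v) [Field K] (n : ℕ) (ρ : G →* GL (Fin n) K)
      (Q : Type w) [Group Q] [Finite Q] (π : G →* Q) (q : ℕ) (e : Fin q → Fin q → G → ℂ),
      IsL1Idempotent e →
      ∃ S : Finset K[X],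
        (∀ f ∈ S, ∀ r ∈ f.aroots (AlgebraicClosure K), IsOfFinOrder r) ∧
        (∀ f ∈ S, ringChar K ≠ 0 → ∀ g : G,
          (ρ g : Matrix (Fin n) (Fin n) K).charpoly = f → IsOfFinOrder (ρ g)) ∧
        ∀ (f : K[X]) (d : Q),
          hsCoeff e {g | (ρ g : Matrix (Fin n) (Fin n) K).charpoly = f ∧ IsConj (π g) d} ≠ 0 →
            f ∈ S) ∧
    (∀ (G : Type u) [Group G] (K : Type v) [Field K] (n : ℕ) (ρ : G →* GL (Fin n) K)
      (Q : Type w) [Group Q] [Finite Q] (π : G →* Q),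
      (∀ g h, (ρ g : Matrix (Fin n) (Fin n) K).charpoly = (ρ h : Matrix (Fin n) (Fin n) K).charpoly →
        IsConj (π g) (π h) → IsConj g h) →
      L1Bass G) ∧
    (∀ n : ℕ, L1Bass (Matrix.unitaryGroup (Fin n) ℂ) ∧
      L1Bass (Matrix.specialUnitaryGroup (Fin n) ℂ)) ∧
    (∀ (G : Type u) [Group G] (K : Type v) [Field K] (n : ℕ) (ρ : G →* GL (Fin n) K)
      (q : ℕ) (e : Fin q → Fin q → G → ℂ), IsL1Idempotent e → ∀ g₀ : G,
      (∃ r ∈ (ρ g₀ : Matrix (Fin n) (Fin n) K).charpoly.aroots (AlgebraicClosure K),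
        ¬ IsOfFinOrder r) →
      (∀ h, (ρ h : Matrix (Fin n) (Fin n) K).charpoly =
          (ρ g₀ : Matrix (Fin n) (Fin n) K).charpoly → ¬ IsConj h g₀ →
        ∃ N : Subgroup G, ∃ _ : N.Normal, N.FiniteIndex ∧ ¬ IsConj (h : G ⧸ N) (g₀ : G ⧸ N)) →
      hsCoeff e (ConjClasses.mk g₀).carrier = 0) := by
  refine ⟨?_, ?_, ?_, ?_⟩
  · intro G _ K _ n ρ Q _ _ π q e he
    obtain ⟨S, h1, h2⟩ := main ρ π e he
    refine ⟨S, h1, fun f hf hK g hg => ?_, h2⟩
    haveI : CharP K (ringChar K) := ringChar.charP K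
    exact isOfFinOrder_of_charP hK (ρ g) (hg.symm ▸ h1 f hf)
  · intro G _ K _ n ρ Q _ _ π hsep
    exact l1Bass_of_separating ρ π hsep
  · intro n
    refine ⟨?_, ?_⟩
    · let ρ : Matrix.unitaryGroup (Fin n) ℂ →* GL (Fin n) ℂ :=
        MonoidHom.toHomUnits (Matrix.unitaryGroup (Fin n) ℂ).subtype
      exact l1Bass_of_separating (Q := Unit) ρ 1 fun g h hgh _ =>
        unitary_isConj_of_charpoly g h hgh
    · let ρ : Matrix.specialUnitaryGroup (Fin n) ℂ →* GL (Fin n) ℂ :=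
        MonoidHom.toHomUnits (Matrix.specialUnitaryGroup (Fin n) ℂ).subtype
      exact l1Bass_of_separating (Q := Unit) ρ 1 fun g h hgh _ =>
        specialUnitary_isConj_of_charpoly g h hgh
  · intro G _ K _ n ρ q e he g₀ hroot hsep
    exact hsCoeff_class_eq_zero ρ he g₀ hroot hsep

end Vale.Agent.Results.P184.BassLinearReps
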