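import Vale.Agent.P184.Twist.Cases
import Vale.Agent.P184.Twist.Algebraic
import Vale.Agent.P184.Twist.Amenable
import Vale.Agent.P184.Twist.Action
import Vale.Agent.P184.Winding.Covered

/-!
P184: vanishing of Hattori–Stallings coefficients at classes of infinite order, including
unipotently detected (distorted) elements.
-/

namespace Vale.Agent.Results.P184.InfiniteOrderClasses

open Vale.P184

universe u v

theorem covered {G : Type u} [Group G] {g : G} (hg : Winding.IsCovered.{u, v} g)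
    (hord : ¬ IsOfFinOrder g) {q : ℕ} {e : Fin q → Fin q → G → ℂ} (he : IsL1Idempotent e) :
    hsCoeff e (ConjClasses.mk g).carrier = 0 := by
  rcases hg with hg | hg | ⟨p, K, _, _, n, ρ, hp, hρ⟩
  · rcases hg with ⟨ℓ, χ, ⟨h1, h2⟩, h3, h4, h5⟩ | ⟨K, _, n, ρ, r, hr, hr1⟩ |
      ⟨X, _, _, o, ε, hiso, hquad, hε, htr⟩ | ⟨ℓ, ε, ⟨h1, h2⟩, hε, h3, hfi | hF⟩
    · exact Twist.hsCoeff_eq_zero ⟨h1, h2, h3, h4⟩ h5 he
    · exact Twist.hsCoeff_eq_zero_of_aroots ρ r hr hr1 he
    · exact Twist.hsCoeff_eq_zero_of_action hiso hquad o hε htr he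
    · exact Twist.hsCoeff_eq_zero_of_undistorted ℓ h1 h2 hε h3 hfi hord he
    · exact Twist.hsCoeff_eq_zero_of_folner ℓ h1 h2 hε h3 hF he
  · exact Winding.hsCoeff_eq_zero_of_detected hg he
  · exact Twist.hsCoeff_eq_zero_of_charP hp ρ hρ he

theorem l1Bass_of_covered {G : Type u} [Group G]
    (hfin : {C : ConjClasses G | ∃ g ∈ C.carrier, IsOfFinOrder g}.Finite)
    (hall : ∀ g : G, ¬ IsOfFinOrder g → Winding.IsCovered.{u, v} g) : L1Bass G := by
  intro q e he
  refine ⟨hfin.toFinset, fun C hC => ?_⟩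
  have hord : ∀ g ∈ C.carrier, IsOfFinOrder g := by
    intro g hg
    by_contra hng
    rw [ConjClasses.mem_carrier_iff_mk_eq] at hg
    exact hC (hg ▸ covered (hall g hng) hng he)
  obtain ⟨g, rfl⟩ := ConjClasses.mk_surjective C
  have hg : g ∈ (ConjClasses.mk g).carrier := ConjClasses.mem_carrier_iff_mk_eq.2 rfl
  exact ⟨hfin.mem_toFinset.2 ⟨g, hg, hord g hg⟩, hord⟩

theorem result :
    (∀ (G : Type u) [Group G] (g : G), Winding.IsCovered.{u, v} g → ¬ IsOfFinOrder g →
      ∀ (q : ℕ) (e : Fin q → Fin q → G → ℂ), IsL1Idempotent e →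
        hsCoeff e (ConjClasses.mk g).carrier = 0) ∧
    (∀ (G : Type u) [Group G],
      {C : ConjClasses G | ∃ g ∈ C.carrier, IsOfFinOrder g}.Finite →
      (∀ g : G, ¬ IsOfFinOrder g → Winding.IsCovered.{u, v} g) → L1Bass G) ∧
    (∀ (G : Type u) [Group G], Winding.IsResiduallyUnitriangular G → L1Bass G) := by
  refine ⟨fun G _ g hg hord q e he => covered hg hord he, fun G _ => l1Bass_of_covered,
    fun G _ h => l1Bass_of_covered.{u, v} ?_ fun g hg => Or.inr (Or.inl ?_)⟩
  · refine (Set.finite_singleton (ConjClasses.mk (1 : G))).subset ?_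
    rintro C ⟨g, hg, hord⟩
    rw [ConjClasses.mem_carrier_iff_mk_eq] at hg
    have : g = 1 := by
      by_contra hne
      exact h.not_isOfFinOrder hne hord
    rw [Set.mem_singleton_iff, ← hg, this]
  · exact h.detected fun h1 => hg (h1 ▸ IsOfFinOrder.one)

end Vale.Agent.Results.P184.InfiniteOrderClasses
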